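import Mathlib
open MeasureTheory ProbabilityTheory
open scoped RealInnerProductSpace

namespace Vale.Agent.Lib.P226

variable {E : Type*} [NormedAddCommGroup E] [InnerProductSpace ℝ E] [FiniteDimensional ℝ E]
  [MeasurableSpace E] [BorelSpace E]

lemma map_inner_stdGaussian (z : E) :
    (stdGaussian E).map (fun x => ⟪z, x⟫) = gaussianReal 0 (‖z‖ ^ 2).toNNReal := by
  have h := IsGaussian.map_eq_gaussianReal (μ := stdGaussian E) (innerSL ℝ z)
  rw [integral_strongDual_stdGaussian, variance_dual_stdGaussian, innerSL_apply_norm] at h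
  have h2 : (⇑(innerSL ℝ z) : E → ℝ) = fun x => ⟪z, x⟫ := by
    ext x; simp [innerSL_apply_apply]
  rw [h2] at h
  exact h

lemma integral_exp_inner (z : E) (t : ℝ) :
    ∫ x, Real.exp (t * ⟪z, x⟫) ∂(stdGaussian E) = Real.exp (‖z‖ ^ 2 * t ^ 2 / 2) := by
  have := mgf_gaussianReal (map_inner_stdGaussian z) t
  simpa [mgf] using this

lemma integrable_exp_inner (z : E) (t : ℝ) :
    Integrable (fun x => Real.exp (t * ⟪z, x⟫)) (stdGaussian E) := by
  have h := integrable_exp_mul_gaussianReal (μ := 0) (v := (‖z‖ ^ 2).toNNReal) t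
  rw [← map_inner_stdGaussian z] at h
  exact (integrable_map_measure (f := fun x : E => ⟪z, x⟫) (g := fun y => Real.exp (t * y))
    (by fun_prop) (by fun_prop)).1 h

lemma integrable_inner (z : E) : Integrable (fun x => ⟪z, x⟫) (stdGaussian E) := by
  have := IsGaussian.integrable_dual (stdGaussian E) (innerSL ℝ z)
  simpa [innerSL_apply_apply] using this

/-- key inequality -/
lemma key (z : E) (A : Set E) (t : ℝ)
    (hpos : 0 < (stdGaussian E).real A) :
    t * ∫ x in A, ⟪z, x⟫ ∂(stdGaussian E) ≤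
      (stdGaussian E).real A * (‖z‖ ^ 2 * t ^ 2 / 2 - Real.log ((stdGaussian E).real A)) := by
  set γ := stdGaussian E with hγ
  set m := γ.real A with hm
  -- pointwise bound
  have hpt : ∀ x : E, (1 / m) * (1 + (t * ⟪z, x⟫ - ‖z‖ ^ 2 * t ^ 2 / 2) + Real.log m)
      ≤ Real.exp (t * ⟪z, x⟫) * Real.exp (-(‖z‖ ^ 2 * t ^ 2 / 2)) := by
    intro x
    have h1 := Real.add_one_le_exp (t * ⟪z, x⟫ - ‖z‖ ^ 2 * t ^ 2 / 2 + Real.log m)
    rw [Real.exp_add, Real.exp_log hpos, sub_eq_add_neg, Real.exp_add] at h1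
    rw [div_mul_eq_mul_div, one_mul, div_le_iff₀ hpos]
    linarith
  have hint1 : IntegrableOn (fun x : E => (1 / m) * (1 + (t * ⟪z, x⟫ - ‖z‖ ^ 2 * t ^ 2 / 2) + Real.log m)) A γ := by
    apply Integrable.integrableOn
    apply Integrable.const_mul
    apply Integrable.add _ (integrable_const _)
    apply Integrable.add (integrable_const _)
    apply Integrable.sub _ (integrable_const _)
    exact (integrable_inner z).const_mul t
  have hint2 : Integrable (fun x : E => Real.exp (t * ⟪z, x⟫) * Real.exp (-(‖z‖ ^ 2 * t ^ 2 / 2))) γ :=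
    (integrable_exp_inner z t).mul_const _
  have h2 : ∫ x in A, (1 / m) * (1 + (t * ⟪z, x⟫ - ‖z‖ ^ 2 * t ^ 2 / 2) + Real.log m) ∂γ
      ≤ ∫ x in A, Real.exp (t * ⟪z, x⟫) * Real.exp (-(‖z‖ ^ 2 * t ^ 2 / 2)) ∂γ :=
    setIntegral_mono hint1 hint2.integrableOn hpt
  have h3 : ∫ x in A, Real.exp (t * ⟪z, x⟫) * Real.exp (-(‖z‖ ^ 2 * t ^ 2 / 2)) ∂γ ≤ 1 := by
    calc _ ≤ ∫ x, Real.exp (t * ⟪z, x⟫) * Real.exp (-(‖z‖ ^ 2 * t ^ 2 / 2)) ∂γ :=
          setIntegral_le_integral hint2 (Filter.Eventually.of_forall (fun x => by positivity))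
      _ = 1 := by
          rw [integral_mul_const, integral_exp_inner, ← Real.exp_add]; simp
  have h4 : ∫ x in A, (1 / m) * (1 + (t * ⟪z, x⟫ - ‖z‖ ^ 2 * t ^ 2 / 2) + Real.log m) ∂γ
      = (1 / m) * (m * (1 - ‖z‖ ^ 2 * t ^ 2 / 2 + Real.log m) + t * ∫ x in A, ⟪z, x⟫ ∂γ) := by
    rw [integral_const_mul]
    congr 1
    have : (fun x : E => 1 + (t * ⟪z, x⟫ - ‖z‖ ^ 2 * t ^ 2 / 2) + Real.log m)
        = fun x : E => (1 - ‖z‖ ^ 2 * t ^ 2 / 2 + Real.log m) + t * ⟪z, x⟫ := by
      ext x; ring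
    rw [this, integral_add (integrable_const _) ((integrable_inner z).const_mul t).integrableOn,
      integral_const_mul, setIntegral_const]
    simp [hm, hγ, smul_eq_mul]
  rw [h4] at h2
  have h5 := h2.trans h3
  rw [div_mul_eq_mul_div, one_mul, div_le_iff₀ hpos] at h5
  nlinarith


lemma integrable_id' : Integrable (fun x : E => x) (stdGaussian E) :=
  IsGaussian.integrable_fun_id

lemma setIntegral_inner_self (A : Set E) :
    ∫ x in A, ⟪∫ y in A, y ∂(stdGaussian E), x⟫ ∂(stdGaussian E)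
      = ‖∫ y in A, y ∂(stdGaussian E)‖ ^ 2 := by
  rw [integral_inner (integrable_id' (E := E)).integrableOn, real_inner_self_eq_norm_sq]

/-- level-one inequality -/
lemma level_one (A : Set E) (hpos : 0 < (stdGaussian E).real A) :
    ‖∫ y in A, y ∂(stdGaussian E)‖ ^ 2 ≤
      2 * (stdGaussian E).real A ^ 2 * (- Real.log ((stdGaussian E).real A)) := by
  have h := key (∫ y in A, y ∂(stdGaussian E)) A (1 / (stdGaussian E).real A) hpos
  rw [setIntegral_inner_self] at h
  set m := (stdGaussian E).real A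
  set w := ‖∫ y in A, y ∂(stdGaussian E)‖ ^ 2
  have h1 : 1 / m * w = w / m := by ring
  have h2 : m * (w * (1 / m) ^ 2 / 2 - Real.log m) = w / m / 2 - m * Real.log m := by
    field_simp
  rw [h1, h2] at h
  have h3 : w / m ≤ 2 * m * (- Real.log m) := by linarith
  rw [div_le_iff₀ hpos] at h3
  nlinarith

lemma small_bound (m : ℝ) (hpos : 0 < m) (hm : m ≤ 1 / 16) :
    2 * m ^ 2 * (- Real.log m) ≤ m * (Real.log 2 / 2) := by
  have h16 : Real.log 16 = 4 * Real.log 2 := by
    rw [show (16 : ℝ) = 2 ^ 4 by norm_num, Real.log_pow]; norm_num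
  have hl2 : (0.69 : ℝ) < Real.log 2 := by
    have := Real.log_two_gt_d9; linarith
  have hν : 0 < 16 * m := by positivity
  have h1 : Real.log (1 / (16 * m)) ≤ 1 / (16 * m) - 1 := Real.log_le_sub_one_of_pos (by positivity)
  rw [Real.log_div one_ne_zero hν.ne', Real.log_one, Real.log_mul (by norm_num) hpos.ne', h16] at h1
  have h2 : (16 * m) * (0 - (4 * Real.log 2 + Real.log m)) ≤ 1 - 16 * m := by
    have := mul_le_mul_of_nonneg_left h1 hν.le
    have e : 16 * m * (1 / (16 * m) - 1) = 1 - 16 * m := by field_simp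
    linarith
  have h3 : 16 * m * (- Real.log m) ≤ 4 * Real.log 2 := by nlinarith
  nlinarith

end Vale.Agent.Lib.P226
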