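import Mathlib
open MeasureTheory Set Filter Topology

namespace Vale.Agent.Lib.P226.Tail

noncomputable def E (x : ℝ) : ℝ := Real.exp (-(x ^ 2) / 2)
noncomputable def T (s : ℝ) : ℝ := ∫ x in Ioi s, E x

lemma E_pos (x : ℝ) : 0 < E x := Real.exp_pos _

lemma E_cont : Continuous E := by unfold E; fun_prop

lemma E_eq (x : ℝ) : E x = Real.exp (-(1 / 2) * x ^ 2) := by
  unfold E; congr 1; ring

lemma E_integrable : Integrable E := by
  have := integrable_exp_neg_mul_sq (b := 1 / 2) (by norm_num)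
  refine this.congr (Eventually.of_forall fun x => ?_)
  simp only [E_eq]

lemma T_nonneg (s : ℝ) : 0 ≤ T s :=
  setIntegral_nonneg measurableSet_Ioi (fun x _ => (E_pos x).le)

lemma T_zero : T 0 = Real.sqrt (2 * Real.pi) / 2 := by
  have := integral_gaussian_Ioi (1 / 2)
  unfold T
  simp only [E_eq]
  rw [this]
  congr 2
  field_simp

lemma T_eq (s : ℝ) : T s = T 0 - ∫ x in (0 : ℝ)..s, E x := by
  have := intervalIntegral.integral_Ioi_sub_Ioi' (f := E) (μ := volume) (a := 0) (b := s)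
    E_integrable.integrableOn E_integrable.integrableOn
  unfold T
  linarith

lemma T_hasDerivAt (s : ℝ) : HasDerivAt T (- E s) s := by
  have h1 : HasDerivAt (fun u => ∫ x in (0 : ℝ)..u, E x) (E s) s :=
    (E_cont.integral_hasStrictDerivAt 0 s).hasDerivAt
  have h2 : T = fun u => T 0 - ∫ x in (0 : ℝ)..u, E x := funext T_eq
  rw [h2]
  exact h1.const_sub _

lemma T_tendsto : Tendsto T atTop (𝓝 0) := by
  have h := intervalIntegral_tendsto_integral_Ioi (f := E) (μ := volume) 0
    E_integrable.integrableOn tendsto_id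
  have h2 : T = fun u => T 0 - ∫ x in (0 : ℝ)..u, E x := funext T_eq
  rw [h2]
  have : Tendsto (fun u => T 0 - ∫ x in (0 : ℝ)..u, E x) atTop (𝓝 (T 0 - T 0)) :=
    tendsto_const_nhds.sub h
  simpa using this

lemma E_hasDerivAt (s : ℝ) : HasDerivAt E (- s * E s) s := by
  unfold E
  have h : HasDerivAt (fun x : ℝ => -(x ^ 2) / 2) (- s) s := by
    have := ((hasDerivAt_pow 2 s).fun_neg).div_const 2
    refine this.congr_deriv ?_
    simp
    ring
  have := h.exp
  convert this using 1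
  ring

lemma E_tendsto : Tendsto E atTop (𝓝 0) := by
  have h : Tendsto (fun x : ℝ => -(x ^ 2) / 2) atTop atBot := by
    have h1 : Tendsto (fun x : ℝ => x ^ 2) atTop atTop := tendsto_pow_atTop (by norm_num)
    have h2 : Tendsto (fun x : ℝ => (x ^ 2) * (1 / 2)) atTop atTop :=
      h1.atTop_mul_const (by norm_num)
    have h3 := tendsto_neg_atTop_atBot.comp h2
    refine h3.congr (fun x => ?_)
    simp only [Function.comp]
    ring
  exact Real.tendsto_exp_atBot.comp h

lemma mulE_integrable : Integrable (fun x => x * E x) := by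
  have := integrable_mul_exp_neg_mul_sq (b := 1 / 2) (by norm_num)
  refine this.congr (Eventually.of_forall fun x => ?_)
  simp only [E_eq]

lemma integral_mulE (s : ℝ) : ∫ x in Ioi s, x * E x = E s := by
  have h := integral_Ioi_of_hasDerivAt_of_tendsto' (f := fun x => - E x) (f' := fun x => x * E x)
    (a := s) (m := 0) (fun x _ => by
      exact (E_hasDerivAt x).fun_neg.congr_deriv (by ring)) mulE_integrable.integrableOn (by simpa using E_tendsto.neg)
  rw [h]; ring


lemma expA : (0.8148 : ℝ) ≤ Real.exp (-(128 / 625)) ∧ Real.exp (-(128 / 625)) ≤ 0.81482 := by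
  have h := Real.exp_bound (x := -(128 / 625)) (by rw [abs_neg, abs_of_pos] <;> norm_num) (n := 5)
    (by norm_num)
  rw [abs_neg, abs_of_pos (by norm_num : (0 : ℝ) < 128 / 625), abs_le] at h
  norm_num [Finset.sum_range_succ, Nat.factorial] at h
  constructor <;> linarith [h.1, h.2]

lemma expB : (0.60404 : ℝ) ≤ Real.exp (-(5041 / 10000)) ∧ Real.exp (-(5041 / 10000)) ≤ 0.60406 := by
  have h := Real.exp_bound (x := -(5041 / 10000)) (by rw [abs_neg, abs_of_pos] <;> norm_num) (n := 8)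
    (by norm_num)
  rw [abs_neg, abs_of_pos (by norm_num : (0 : ℝ) < 5041 / 10000), abs_le] at h
  norm_num [Finset.sum_range_succ, Nat.factorial] at h
  constructor <;> linarith [h.1, h.2]

lemma kappa : (2.5066 : ℝ) < Real.sqrt (2 * Real.pi) ∧ Real.sqrt (2 * Real.pi) < 2.5067 := by
  have h1 := Real.pi_gt_d6
  have h2 := Real.pi_lt_d6
  constructor
  · apply Real.lt_sqrt_of_sq_lt
    norm_num; linarith
  · rw [Real.sqrt_lt' (by norm_num)]
    norm_num; linarith

lemma E_mul (s t : ℝ) : E t = E s * Real.exp ((s ^ 2 - t ^ 2) / 2) := by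
  unfold E
  rw [← Real.exp_add]
  congr 1
  ring

lemma mono1 {s t : ℝ} (hs : 0 ≤ s) (hst : s ≤ t) (ht : t ≤ 1) : s * E s ≤ t * E t := by
  have h1 := Real.add_one_le_exp ((s ^ 2 - t ^ 2) / 2)
  rw [E_mul s t]
  have hE := E_pos s
  have h2 : s ≤ t * Real.exp ((s ^ 2 - t ^ 2) / 2) := by
    have h3 : s ≤ t * ((s ^ 2 - t ^ 2) / 2 + 1) := by
      have : 0 ≤ (t - s) * (1 - t * (t + s) / 2) := by
        apply mul_nonneg (by linarith)
        nlinarith
      nlinarith
    exact h3.trans (mul_le_mul_of_nonneg_left h1 (by linarith))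
  calc s * E s ≤ (t * Real.exp ((s ^ 2 - t ^ 2) / 2)) * E s :=
        mul_le_mul_of_nonneg_right h2 hE.le
    _ = t * (E s * Real.exp ((s ^ 2 - t ^ 2) / 2)) := by ring

lemma anti1 {s t : ℝ} (hs : 1 ≤ s) (hst : s ≤ t) : t * E t ≤ s * E s := by
  have h1 := Real.add_one_le_exp ((t ^ 2 - s ^ 2) / 2)
  rw [E_mul t s]
  have hE := E_pos t
  have h2 : t ≤ s * Real.exp ((t ^ 2 - s ^ 2) / 2) := by
    have h3 : t ≤ s * ((t ^ 2 - s ^ 2) / 2 + 1) := by
      have : 0 ≤ (t - s) * (s * (t + s) / 2 - 1) := by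
        apply mul_nonneg (by linarith)
        nlinarith
      nlinarith
    exact h3.trans (mul_le_mul_of_nonneg_left h1 (by linarith))
  calc t * E t ≤ (s * Real.exp ((t ^ 2 - s ^ 2) / 2)) * E t :=
        mul_le_mul_of_nonneg_right h2 hE.le
    _ = s * (E t * Real.exp ((t ^ 2 - s ^ 2) / 2)) := by ring

noncomputable def H (C : ℝ) (s : ℝ) : ℝ := C * T s - E s ^ 2

lemma H_hasDerivAt (C s : ℝ) : HasDerivAt (H C) (E s * (2 * s * E s - C)) s := by
  unfold H
  have h := ((T_hasDerivAt s).const_mul C).fun_sub ((E_hasDerivAt s).fun_pow 2)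
  refine h.congr_deriv ?_
  simp
  ring

lemma H_cont (C : ℝ) : Continuous (H C) :=
  continuous_iff_continuousAt.2 (fun s => (H_hasDerivAt C s).continuousAt)

lemma H_antitoneOn (C : ℝ) (D : Set ℝ) (hD : Convex ℝ D) (h : ∀ s ∈ D, 2 * s * E s ≤ C) :
    AntitoneOn (H C) D := by
  apply antitoneOn_of_deriv_nonpos hD (H_cont C).continuousOn
  · intro s _
    exact (H_hasDerivAt C s).differentiableAt.differentiableWithinAt
  · intro s hs
    rw [(H_hasDerivAt C s).deriv]
    exact mul_nonpos_of_nonneg_of_nonpos (E_pos s).le (by linarith [h s (interior_subset hs)])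

lemma H_monotoneOn (C : ℝ) (D : Set ℝ) (hD : Convex ℝ D) (h : ∀ s ∈ D, C ≤ 2 * s * E s) :
    MonotoneOn (H C) D := by
  apply monotoneOn_of_deriv_nonneg hD (H_cont C).continuousOn
  · intro s _
    exact (H_hasDerivAt C s).differentiableAt.differentiableWithinAt
  · intro s hs
    rw [(H_hasDerivAt C s).deriv]
    exact mul_nonneg (E_pos s).le (by linarith [h s (interior_subset hs)])

lemma H_tendsto (C : ℝ) : Tendsto (H C) atTop (𝓝 0) := by
  unfold H
  have := (T_tendsto.const_mul C).sub (E_tendsto.pow 2)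
  simpa using this

/-- lower bound for `T` on `[0,1]` -/
lemma T_lower {s : ℝ} (hs0 : 0 ≤ s) (hs1 : s ≤ 1) :
    Real.sqrt (2 * Real.pi) / 2 - (s - s ^ 3 / 6 + s ^ 5 / 40 + s ^ 7 / 252) ≤ T s := by
  set G : ℝ → ℝ := fun u => T u + (u - u ^ 3 / 6 + u ^ 5 / 40 + u ^ 7 / 252) with hG
  have hder : ∀ u, HasDerivAt G (- E u + (1 - u ^ 2 / 2 + u ^ 4 / 8 + u ^ 6 / 36)) u := by
    intro u
    have h1 : HasDerivAt (fun u : ℝ => u - u ^ 3 / 6 + u ^ 5 / 40 + u ^ 7 / 252)
        (1 - u ^ 2 / 2 + u ^ 4 / 8 + u ^ 6 / 36) u := by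
      have := (((hasDerivAt_id u).fun_sub ((hasDerivAt_pow 3 u).div_const 6)).fun_add
        ((hasDerivAt_pow 5 u).div_const 40)).fun_add ((hasDerivAt_pow 7 u).div_const 252)
      refine this.congr_deriv ?_
      simp
      ring
    exact (T_hasDerivAt u).fun_add h1
  have hmono : MonotoneOn G (Icc 0 1) := by
    apply monotoneOn_of_deriv_nonneg (convex_Icc 0 1)
    · exact fun u _ => (hder u).continuousAt.continuousWithinAt
    · exact fun u _ => (hder u).differentiableAt.differentiableWithinAt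
    · intro u hu
      rw [interior_Icc] at hu
      rw [(hder u).deriv]
      -- E u ≤ 1 - y + y^2/2 + (2/9) y^3 with y = u^2/2
      have hy0 : 0 ≤ u ^ 2 / 2 := by positivity
      have hy1 : u ^ 2 / 2 ≤ 1 := by nlinarith [hu.1, hu.2]
      have h := Real.exp_bound (x := -(u ^ 2 / 2)) (by rw [abs_neg, abs_of_nonneg hy0]; exact hy1)
        (n := 3) (by norm_num)
      rw [abs_neg, abs_of_nonneg hy0, abs_le] at h
      norm_num [Finset.sum_range_succ, Nat.factorial] at h
      have hE : E u = Real.exp (-(u ^ 2 / 2)) := by unfold E; congr 1; ring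
      rw [hE]
      nlinarith [h.2]
  have := hmono (left_mem_Icc.2 zero_le_one) ⟨hs0, hs1⟩ hs0
  simp only [hG] at this
  rw [T_zero] at this
  have h0 : (0 : ℝ) - 0 ^ 3 / 6 + 0 ^ 5 / 40 + 0 ^ 7 / 252 = 0 := by norm_num
  rw [h0, add_zero] at this
  linarith


/-- The key analytic inequality. -/
theorem E_sq_le {s : ℝ} (hs : 0 ≤ s) : E s ^ 2 ≤ 0.42 * Real.sqrt (2 * Real.pi) * T s := by
  set κ := Real.sqrt (2 * Real.pi) with hκ
  obtain ⟨k1, k2⟩ := kappa
  rw [← hκ] at k1 k2
  have hEa : E (16 / 25) = Real.exp (-(128 / 625)) := by unfold E; congr 1; norm_num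
  have hEb : E (71 / 50) = Real.exp (-(5041 / 10000)) ^ 2 := by
    unfold E; rw [← Real.exp_nat_mul]; congr 1; norm_num
  obtain ⟨a1, a2⟩ := expA
  obtain ⟨b1, b2⟩ := expB
  rw [← hEa] at a1 a2
  have b1' : (0.364864 : ℝ) ≤ E (71 / 50) := by
    rw [hEb]; nlinarith
  have b2' : E (71 / 50) ≤ 0.364889 := by
    rw [hEb]; nlinarith [Real.exp_pos (-(5041 / 10000) : ℝ)]
  have hTa : (0.654131 : ℝ) ≤ T (16 / 25) := by
    have := T_lower (s := 16 / 25) (by norm_num) (by norm_num)
    rw [← hκ] at this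
    norm_num at this ⊢
    linarith
  -- H (0.41 κ) (a) ≥ 0
  have hHa : 0 ≤ H (0.41 * κ) (16 / 25) := by
    unfold H
    have h1 : E (16 / 25) ^ 2 ≤ 0.663932 := by nlinarith [E_pos (16 / 25 : ℝ)]
    have h2 : (0.672252 : ℝ) ≤ 0.41 * κ * T (16 / 25) := by nlinarith
    linarith
  have hHmono : ∀ u, H (0.41 * κ) u ≤ H (0.42 * κ) u := by
    intro u
    unfold H
    have := T_nonneg u
    nlinarith
  suffices h : 0 ≤ H (0.42 * κ) s by unfold H at h; linarith
  rcases le_total s (16 / 25) with h1 | h1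
  · -- antitone on [0,a]
    have hanti := H_antitoneOn (0.42 * κ) (Icc 0 (16 / 25)) (convex_Icc _ _) (by
      intro u hu
      have := mono1 hu.1 hu.2 (by norm_num)
      nlinarith)
    have := hanti ⟨hs, h1⟩ (right_mem_Icc.2 (by norm_num)) h1
    linarith [hHmono (16 / 25)]
  rcases le_total s (71 / 50) with h2 | h2
  · have hmono := H_monotoneOn (0.41 * κ) (Icc (16 / 25) (71 / 50)) (convex_Icc _ _) (by
      intro u hu
      rcases le_total u 1 with hu1 | hu1
      · have := mono1 (s := 16 / 25) (by norm_num) hu.1 hu1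
        nlinarith
      · have := anti1 hu1 hu.2
        nlinarith)
    have := hmono (left_mem_Icc.2 (by norm_num)) ⟨h1, h2⟩ h1
    linarith [hHmono s]
  · have hanti := H_antitoneOn (0.42 * κ) (Ici (71 / 50)) (convex_Ici _) (by
      intro u hu
      have := anti1 (s := 71 / 50) (by norm_num) hu
      nlinarith)
    refine le_of_tendsto (H_tendsto (0.42 * κ)) ?_
    filter_upwards [eventually_ge_atTop s] with u hu
    exact hanti h2 (h2.trans hu) hu

end Vale.Agent.Lib.P226.Tail
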