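import Mathlib
import Vale.Agent.Lib.P226.Tail
import Vale.Agent.Lib.P226.LevelOne
open MeasureTheory ProbabilityTheory Set
open scoped RealInnerProductSpace

namespace Vale.Agent.Lib.P226.Cell
open Vale.Agent.Lib.P226 Vale.Agent.Lib.P226.Tail

lemma pdf_eq (x : ℝ) : gaussianPDFReal 0 1 x = (Real.sqrt (2 * Real.pi))⁻¹ * E x := by
  unfold gaussianPDFReal E
  simp

/-- `E (Z - s)_+` for a standard normal `Z`. -/
lemma J_eq (s : ℝ) : ∫ y, max (y - s) 0 ∂(gaussianReal 0 1)
    = (Real.sqrt (2 * Real.pi))⁻¹ * (E s - s * T s) := by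
  rw [integral_gaussianReal_eq_integral_smul (by norm_num)]
  simp only [pdf_eq, smul_eq_mul, mul_assoc]
  rw [integral_const_mul]
  congr 1
  have h0 : ∀ x, x ∉ Ioi s → E x * max (x - s) 0 = 0 := by
    intro x hx
    have : x - s ≤ 0 := by simpa using hx
    rw [max_eq_right this, mul_zero]
  rw [← setIntegral_eq_integral_of_forall_compl_eq_zero h0]
  have h1 : ∫ x in Ioi s, E x * max (x - s) 0 = ∫ x in Ioi s, (x * E x - s * E x) := by
    apply setIntegral_congr_fun measurableSet_Ioi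
    intro x hx
    have : 0 ≤ x - s := by have : s < x := hx; linarith
    simp only [max_eq_left this]
    ring
  rw [h1, integral_sub mulE_integrable.integrableOn (E_integrable.const_mul s).integrableOn,
    integral_mulE, integral_const_mul]
  rfl

lemma J_bound {s : ℝ} (hs : 0 < s) : s * ∫ y, max (y - s) 0 ∂(gaussianReal 0 1) ≤ 0.105 := by
  rw [J_eq]
  set κ := Real.sqrt (2 * Real.pi) with hκ
  have hκpos : 0 < κ := by have := kappa.1; rw [← hκ] at this; linarith
  have h := E_sq_le hs.le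
  rw [← hκ] at h
  -- y = s E / κ
  have hT : E s ^ 2 / (0.42 * κ) ≤ T s := by
    rw [div_le_iff₀ (by positivity)]; linarith
  have h1 : s * (κ⁻¹ * (E s - s * T s)) ≤ s * (κ⁻¹ * (E s - s * (E s ^ 2 / (0.42 * κ)))) := by
    apply mul_le_mul_of_nonneg_left _ hs.le
    apply mul_le_mul_of_nonneg_left _ (inv_pos.2 hκpos).le
    have := mul_le_mul_of_nonneg_left hT hs.le
    linarith
  refine h1.trans ?_
  have h2 : s * (κ⁻¹ * (E s - s * (E s ^ 2 / (0.42 * κ))))
      = (s * E s / κ) - (s * E s / κ) ^ 2 / 0.42 := by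
    field_simp
  rw [h2]
  have h3 : (s * E s / κ) - (s * E s / κ) ^ 2 / 0.42
      = 0.105 - (s * E s / κ - 0.21) ^ 2 / 0.42 := by ring
  rw [h3]
  have : 0 ≤ (s * E s / κ - 0.21) ^ 2 / 0.42 := by positivity
  linarith

variable {V : Type*} [NormedAddCommGroup V] [InnerProductSpace ℝ V] [FiniteDimensional ℝ V]
  [MeasurableSpace V] [BorelSpace V]

lemma integral_pos_part (z : V) (hz : z ≠ 0) {t : ℝ} (ht : 0 < t) :
    ∫ x, max (⟪z, x⟫ - t) 0 ∂(stdGaussian V) ≤ 0.105 * ‖z‖ ^ 2 / t := by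
  set σ := ‖z‖ with hσ
  have hσpos : 0 < σ := norm_pos_iff.2 hz
  set u : V := σ⁻¹ • z with hu
  have hun : ‖u‖ = 1 := by
    rw [hu, norm_smul, norm_inv, norm_norm, ← hσ]; field_simp
  have hlaw : (stdGaussian V).map (fun x => ⟪u, x⟫) = gaussianReal 0 1 := by
    rw [map_inner_stdGaussian, hun]; simp
  have h1 : ∫ x, max (⟪z, x⟫ - t) 0 ∂(stdGaussian V)
      = ∫ y, max (σ * y - t) 0 ∂(gaussianReal 0 1) := by
    rw [← hlaw, integral_map (by fun_prop) (by fun_prop)]
    congr 1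
    ext x
    rw [hu, real_inner_smul_left]
    congr 2
    field_simp
  have h2 : ∫ y, max (σ * y - t) 0 ∂(gaussianReal 0 1)
      = σ * ∫ y, max (y - t / σ) 0 ∂(gaussianReal 0 1) := by
    rw [← integral_const_mul]
    congr 1
    ext y
    rw [mul_max_of_nonneg _ _ hσpos.le, mul_zero]
    congr 1
    field_simp
  rw [h1, h2]
  have h3 := J_bound (s := t / σ) (by positivity)
  have h4 : σ * ∫ y, max (y - t / σ) 0 ∂(gaussianReal 0 1)
      = (σ ^ 2 / t) * (t / σ * ∫ y, max (y - t / σ) 0 ∂(gaussianReal 0 1)) := by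
    field_simp
  rw [h4]
  calc (σ ^ 2 / t) * (t / σ * ∫ y, max (y - t / σ) 0 ∂(gaussianReal 0 1))
      ≤ (σ ^ 2 / t) * 0.105 := mul_le_mul_of_nonneg_left h3 (by positivity)
    _ = 0.105 * σ ^ 2 / t := by ring

/-- single cell inequality -/
theorem cell_bound (A : Set V) :
    ‖∫ y in A, y ∂(stdGaussian V)‖ ^ 2 ≤ 0.42 * (stdGaussian V).real A := by
  set z := ∫ y in A, y ∂(stdGaussian V) with hz
  by_cases hz0 : z = 0
  · rw [hz0]; simp; positivity
  have h1 : ‖z‖ ^ 2 = ∫ x in A, ⟪z, x⟫ ∂(stdGaussian V) := (setIntegral_inner_self A).symm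
  have hint : Integrable (fun x => max (⟪z, x⟫ - 0.21) 0) (stdGaussian V) :=
    ((integrable_inner z).sub (integrable_const _)).pos_part
  have h2 : ∫ x in A, ⟪z, x⟫ ∂(stdGaussian V)
      ≤ ∫ x in A, (0.21 + max (⟪z, x⟫ - 0.21) 0) ∂(stdGaussian V) := by
    apply setIntegral_mono (integrable_inner z).integrableOn
      ((integrable_const _).add hint).integrableOn
    intro x
    have := le_max_left (⟪z, x⟫ - 0.21) 0
    change ⟪z, x⟫ ≤ 0.21 + max (⟪z, x⟫ - 0.21) 0
    linarith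
  have h3 : ∫ x in A, (0.21 + max (⟪z, x⟫ - 0.21) 0) ∂(stdGaussian V)
      = 0.21 * (stdGaussian V).real A + ∫ x in A, max (⟪z, x⟫ - 0.21) 0 ∂(stdGaussian V) := by
    rw [integral_add (integrable_const _).integrableOn hint.integrableOn, setIntegral_const]
    simp [smul_eq_mul, mul_comm]
  have h4 : ∫ x in A, max (⟪z, x⟫ - 0.21) 0 ∂(stdGaussian V)
      ≤ ∫ x, max (⟪z, x⟫ - 0.21) 0 ∂(stdGaussian V) :=
    setIntegral_le_integral hint (Filter.Eventually.of_forall (fun x => le_max_right _ _))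
  have h5 := integral_pos_part z hz0 (t := 0.21) (by norm_num)
  have h6 : 0.105 * ‖z‖ ^ 2 / 0.21 = ‖z‖ ^ 2 / 2 := by ring
  rw [h6] at h5
  linarith

end Vale.Agent.Lib.P226.Cell
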