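import Mathlib

open MeasureTheory ProbabilityTheory
open scoped RealInnerProductSpace

namespace Vale.Agent.Lib.P226.Merge

variable {V : Type*} [NormedAddCommGroup V] [InnerProductSpace ℝ V]

/-- averaging over ordered pairs: vectors with sum zero have a pair with a not too negative
inner product -/
theorem exists_pair {n : ℕ} (hn : 1 ≤ n) (z : Fin (n + 1) → V) (hz : ∑ i, z i = 0) :
    ∃ i j, i ≠ j ∧ -(∑ m, ‖z m‖ ^ 2) / ((n + 1 : ℝ) * n) ≤ ⟪z i, z j⟫ := by
  classical
  set F : ℝ := ∑ m, ‖z m‖ ^ 2 with hF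
  set t : ℝ := -F / ((n + 1 : ℝ) * n) with ht
  by_contra hcon
  simp only [not_exists, not_and, not_le] at hcon
  have hrow : ∀ i, ∑ j ∈ Finset.univ.erase i, ⟪z i, z j⟫ = -‖z i‖ ^ 2 := by
    intro i
    have h1 : ∑ j, ⟪z i, z j⟫ = 0 := by rw [← inner_sum, hz, inner_zero_right]
    rw [← Finset.add_sum_erase Finset.univ _ (Finset.mem_univ i), real_inner_self_eq_norm_sq] at h1
    linarith
  have hcard : ∀ i : Fin (n + 1), (Finset.univ.erase i).card = n := by
    intro i
    rw [Finset.card_erase_of_mem (Finset.mem_univ i)]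
    simp
  have hlt : ∀ i, -‖z i‖ ^ 2 < (n : ℝ) * t := by
    intro i
    rw [← hrow i]
    have hne : (Finset.univ.erase i).Nonempty := by
      rw [← Finset.card_pos, hcard i]; omega
    calc ∑ j ∈ Finset.univ.erase i, ⟪z i, z j⟫ < ∑ _j ∈ Finset.univ.erase i, t :=
          Finset.sum_lt_sum_of_nonempty hne
            (fun j hj => hcon i j (Finset.mem_erase.mp hj).1.symm)
      _ = (n : ℝ) * t := by rw [Finset.sum_const, hcard i, nsmul_eq_mul]
  have hsum : ∑ i : Fin (n + 1), -‖z i‖ ^ 2 < ∑ _i : Fin (n + 1), (n : ℝ) * t :=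
    Finset.sum_lt_sum_of_nonempty Finset.univ_nonempty (fun i _ => hlt i)
  rw [Finset.sum_neg_distrib, Finset.sum_const, Finset.card_univ, Fintype.card_fin,
    nsmul_eq_mul] at hsum
  have hn0 : (0 : ℝ) < (n + 1 : ℝ) * n := by
    have : (0 : ℝ) < n := by exact_mod_cast hn
    positivity
  have e : ((n + 1 : ℕ) : ℝ) * ((n : ℝ) * t) = -F := by
    rw [ht]
    push_cast
    field_simp
  rw [e] at hsum
  exact lt_irrefl _ hsum

/-- merging two suitable cells of a partition into `n + 1` cells loses at most the fraction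
`2 / ((n + 1) n)` of the sum of the squared Gaussian moments -/
theorem merge_step {d n : ℕ} (hn : 1 ≤ n) (A : Fin (n + 1) → Set (EuclideanSpace ℝ (Fin d)))
    (hmeas : ∀ i, MeasurableSet (A i)) (hdisj : Pairwise (Function.onFun Disjoint A))
    (hcover : ⋃ i, A i = Set.univ) :
    ∃ B : Fin n → Set (EuclideanSpace ℝ (Fin d)), (∀ l, MeasurableSet (B l)) ∧
      Pairwise (Function.onFun Disjoint B) ∧ ⋃ l, B l = Set.univ ∧
      (1 - 2 / ((n + 1 : ℝ) * n)) *
          ∑ i, ‖∫ x in A i, x ∂(stdGaussian (EuclideanSpace ℝ (Fin d)))‖ ^ 2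
        ≤ ∑ l, ‖∫ x in B l, x ∂(stdGaussian (EuclideanSpace ℝ (Fin d)))‖ ^ 2 := by
  classical
  set γ := stdGaussian (EuclideanSpace ℝ (Fin d)) with hγ
  have hint : Integrable (fun x : EuclideanSpace ℝ (Fin d) => x) γ := IsGaussian.integrable_id
  set z : Fin (n + 1) → EuclideanSpace ℝ (Fin d) := fun i => ∫ x in A i, x ∂γ with hz
  have hz0 : ∑ i, z i = 0 := by
    have h1 := integral_iUnion_fintype (μ := γ) (f := fun x : EuclideanSpace ℝ (Fin d) => x)
      hmeas hdisj (fun i => hint.integrableOn)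
    rw [hcover, setIntegral_univ, integral_id_stdGaussian] at h1
    exact h1.symm
  obtain ⟨i, j, hij, hpair⟩ := exists_pair hn z hz0
  set A' : Fin (n + 1) → Set (EuclideanSpace ℝ (Fin d)) :=
    fun m => if m = i then A i ∪ A j else A m with hA'
  have hA'i : A' i = A i ∪ A j := if_pos rfl
  have hA'ne : ∀ m, m ≠ i → A' m = A m := fun m hm => if_neg hm
  have hsub : ∀ m, A m ⊆ A' m := by
    intro m
    by_cases hm : m = i
    · rw [hm, hA'i]; exact Set.subset_union_left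
    · rw [hA'ne m hm]
  have hdisj' : ∀ m m', m ≠ m' → m ≠ j → m' ≠ j → Disjoint (A' m) (A' m') := by
    intro m m' hmm hmj hmj'
    by_cases hm : m = i
    · have hm' : m' ≠ i := fun h => hmm (hm.trans h.symm)
      rw [hm, hA'i, hA'ne m' hm', Set.disjoint_union_left]
      exact ⟨hdisj (fun h => hm' h.symm), hdisj (fun h => hmj' h.symm)⟩
    · by_cases hm' : m' = i
      · rw [hm', hA'i, hA'ne m hm, Set.disjoint_union_right]
        exact ⟨hdisj hm, hdisj hmj⟩
      · rw [hA'ne m hm, hA'ne m' hm']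
        exact hdisj hmm
  refine ⟨fun l => A' (j.succAbove l), ?_, ?_, ?_, ?_⟩
  · intro l
    show MeasurableSet (A' (j.succAbove l))
    by_cases hm : j.succAbove l = i
    · rw [hm, hA'i]; exact (hmeas i).union (hmeas j)
    · rw [hA'ne _ hm]; exact hmeas _
  · intro l l' hll
    exact hdisj' _ _ (fun h => hll (Fin.succAbove_right_injective h)) (Fin.succAbove_ne j l)
      (Fin.succAbove_ne j l')
  · rw [Set.eq_univ_iff_forall]
    intro x
    have hx : x ∈ ⋃ m, A m := by rw [hcover]; exact Set.mem_univ x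
    obtain ⟨m0, hm0⟩ := Set.mem_iUnion.mp hx
    by_cases hmj : m0 = j
    · obtain ⟨l, hl⟩ := Fin.exists_succAbove_eq hij
      refine Set.mem_iUnion.mpr ⟨l, ?_⟩
      show x ∈ A' (j.succAbove l)
      rw [hl, hA'i]
      exact Or.inr (hmj ▸ hm0)
    · obtain ⟨l, hl⟩ := Fin.exists_succAbove_eq hmj
      refine Set.mem_iUnion.mpr ⟨l, ?_⟩
      show x ∈ A' (j.succAbove l)
      rw [hl]
      exact hsub m0 hm0
  · set F : ℝ := ∑ m, ‖z m‖ ^ 2 with hF
    have hzi : ∫ x in A' i, x ∂γ = z i + z j := by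
      rw [hA'i]
      exact setIntegral_union (hdisj hij) (hmeas j) hint.integrableOn hint.integrableOn
    have h1 : ∑ m, ‖∫ x in A' m, x ∂γ‖ ^ 2 = ‖z i + z j‖ ^ 2 + (F - ‖z i‖ ^ 2) := by
      rw [← Finset.add_sum_erase Finset.univ _ (Finset.mem_univ i), hzi]
      congr 1
      have h2 : ∑ m ∈ Finset.univ.erase i, ‖∫ x in A' m, x ∂γ‖ ^ 2
          = ∑ m ∈ Finset.univ.erase i, ‖z m‖ ^ 2 := by
        refine Finset.sum_congr rfl fun m hm => ?_
        rw [hA'ne m (Finset.mem_erase.mp hm).1]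
      rw [h2, hF, ← Finset.add_sum_erase Finset.univ _ (Finset.mem_univ i)]
      ring
    have h3 := Fin.sum_univ_succAbove (fun m => ‖∫ x in A' m, x ∂γ‖ ^ 2) j
    rw [h1, hA'ne j (fun h => hij h.symm)] at h3
    have h4 : ∑ l, ‖∫ x in A' (j.succAbove l), x ∂γ‖ ^ 2
        = ‖z i + z j‖ ^ 2 + (F - ‖z i‖ ^ 2) - ‖z j‖ ^ 2 := by
      have : ‖∫ x in A j, x ∂γ‖ ^ 2 = ‖z j‖ ^ 2 := rfl
      linarith
    rw [h4, norm_add_sq_real]
    have h5 : (1 - 2 / ((n + 1 : ℝ) * n)) * F = F + 2 * (-F / ((n + 1 : ℝ) * n)) := by ring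
    rw [h5]
    linarith

end Vale.Agent.Lib.P226.Merge
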